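import Vale.Agent.P082.Global.Halv
import Vale.Agent.P082.Global.Pieces
import Vale.Agent.P082.Global.Glue
import Vale.Agent.P082.Global.Free
import Vale.Agent.P082.Global.TypeI
import Vale.Agent.P082.Global.Local
import Vale.Agent.P082.Global.Normal
import Vale.Agent.P082.Global.Polar
import Vale.Agent.P082.Core.Assembly
import Vale.Agent.P082.Core.Walk
import Vale.Agent.P082.Core.Scalar
import Vale.Agent.P082.Core.Blocks
import Vale.Agent.P082.Core.Phase
import Vale.Agent.P082.Core.Expand
import Vale.Agent.P082.Core.Replace
import Vale.Agent.P082.Core.Moments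
import Vale.Agent.P082.Core.Poly

/-!
# The Kadison–Ringrose cohomology conjecture

For every von Neumann algebra `M` on a complex Hilbert space and every degree `k + 1 ≥ 1`, every
bounded multilinear cocycle with values in `M` is the coboundary of a bounded multilinear cochain
with values in `M`.
-/

namespace Vale.Agent.Results.P082.KadisonRingrose

open Vale.Agent.P082

universe u

theorem result {H : Type u} [NormedAddCommGroup H] [InnerProductSpace ℂ H] [CompleteSpace H]
    (M : VonNeumannAlgebra H) (k : ℕ)
    (f : ContinuousMultilinearMap ℂ (fun _ : Fin (k + 1) => M.toStarSubalgebra)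
      M.toStarSubalgebra)
    (hf : ∀ a, dHoch f a = 0) :
    ∃ g : ContinuousMultilinearMap ℂ (fun _ : Fin k => M.toStarSubalgebra) M.toStarSubalgebra,
      ∀ a, f a = dHoch g a :=
  vanishes_of_modules
    (fun _ _ _ _ _ _ h hm => localOut (trOf h) (weakLim h) (normalOut (trOf h) (weakLim h)) hm)
    (fun _ _ _ _ _ _ h hna => meanOut (trOf h) walkOut (scalarOut _) (injOut _) (crossOut _)
      (diagOut _ walkOut) pairOut (expandOut _) (replaceOut _ polyOut (momentsOut _) (hasPolar h))
      powOut (hasFree h hna))
    (fun _ _ _ _ _ => typeIOut) (halvOut M) glueOut k f hf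

end Vale.Agent.Results.P082.KadisonRingrose
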